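import Vale.Agent.P106.R.E9.Spec
import Vale.Agent.P122.H518.E12
import Vale.Agent.P122.H624.BoxA
import Vale.Agent.P127.U.BasicA

/-!
# P106 / R / H624 : the Kakeya step with the fattened box (helper624)

`fat r B` : the conformal box `B` with `u1` replaced by `max u1 r`.
-/

set_option autoImplicit false

namespace Vale.Agent.P106.R.H624

open Filter Topology Finset Vale.Agent.P127 Vale.Agent.P127.Stk Vale.Agent.P127.U Vale.Agent.P127.U.Sys
  Vale.Agent.P106.R.C2 Vale.Agent.P106.R.E Vale.Agent.P106.R.E9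
open Vale.Agent.P106.W (Cbx)

/-- the fattened box -/
noncomputable def fat (r : ℝ) (B : Cbx) : Cbx := { B with u1 := max B.u1 r }

theorem fat_In {r H : ℝ} {B : Cbx} {y s : Fin 2 → ℝ} {z : ℝ} (h : B.In H y s z) : (fat r B).In H y s z := by
  obtain ⟨h1, h2, h3, h4, h5⟩ := h
  exact ⟨h1, h2, h3, h4.trans (le_max_left _ _), h5.trans (le_max_left _ _)⟩

theorem fat_ok {r r' H c : ℝ} {B : Cbx} (hr : r ≤ B.u2) (h : B.ok c r' H) : (fat r B).ok c r H where
  r1 := le_max_right _ _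
  u12 := max_le h.u12 hr
  u2 := h.u2
  α2 := h.α2
  κ2 := h.κ2
  αH := h.αH.trans (le_max_left _ _)
  κH := h.κH.trans (le_max_left _ _)

section flg

variable {K : ℕ} (F : Flg K)

theorem n_pos' : ∀ᶠ a in (uf : Filter ℕ), 0 < F.n a := by
  filter_upwards [F.S.L_pos] with a ha
  rw [F.L_eq a] at ha
  rcases Nat.eq_zero_or_pos (F.n a) with h0 | h0
  · rw [h0, mul_zero] at ha
    exact absurd ha (lt_irrefl _)
  · exact h0

/-- `ν (m n) = m / K` -/
theorem nu_mul (hK : 1 ≤ K) (m : ℕ) : F.S.nu (fun a => m * F.n a) = (m : ℝ) / K := by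
  refine ulim_eq ?_
  refine tendsto_const_nhds.congr' ?_
  filter_upwards [F.S.L_pos, n_pos' F] with a ha hn'
  have hK0 : (0:ℝ) < K := by exact_mod_cast hK
  have hn : (0:ℝ) < F.n a := by exact_mod_cast hn'
  rw [F.L_eq a]
  push_cast
  field_simp

theorem bd_m (c : ℕ) (hc : c ≤ K) : F.S.Bd fun a => c * F.n a := by
  refine ⟨1, Eventually.of_forall fun a => ?_⟩
  rw [one_mul]
  have h1 : c * F.n a ≤ F.S.L a := by
    rw [F.L_eq]
    exact Nat.mul_le_mul_right _ hc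
  exact_mod_cast h1

variable {F} {J θ H e : ℕ → ℝ} {W : ℕ → F.S.RV Cbx} {kk jj : ℕ → ℕ → ℕ}

theorem law_pos {Ω : Type} [Fintype Ω] (P : Law Ω) : ∃ ω, 0 < P.w ω := by
  by_contra h
  push Not at h
  have h1 : ∑ ω, P.w ω ≤ 0 := Finset.sum_nonpos fun ω _ => h ω
  rw [P.sum_one] at h1
  linarith

theorem bd_jj (R : RegA F J θ H e W kk jj) {c : ℕ} (hc : c ≤ K) : F.S.Bd (jj c) := by
  refine ⟨1, ?_⟩
  filter_upwards [R.Wok c hc] with a h1
  obtain ⟨ω, hω⟩ := law_pos (F.S.P a)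
  obtain ⟨-, -, -, -, -, h7⟩ := h1 ω hω
  rw [one_mul]
  have h2 : jj c a ≤ F.S.L a := by
    rw [F.L_eq]
    exact h7.trans (Nat.mul_le_mul_right _ hc)
  exact_mod_cast h2

theorem bd_kk (R : RegA F J θ H e W kk jj) {c : ℕ} (hc : c ≤ K) : F.S.Bd (kk c) := by
  obtain ⟨x, hx⟩ := bd_jj R hc
  refine ⟨x, ?_⟩
  filter_upwards [hx, R.Wok c hc] with a h0 h1
  obtain ⟨ω, hω⟩ := law_pos (F.S.P a)
  obtain ⟨-, -, -, -, h6, -⟩ := h1 ω hω
  have : (kk c a : ℝ) ≤ jj c a := by exact_mod_cast h6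
  linarith

theorem fn_sig (c d : ℕ) : Sys.Fn (F.sig c d) (F.N c) :=
  Eventually.of_forall fun a ω ω' _ _ q => by
    have q' : F.N c a ω = F.N c a ω' := q
    unfold Flg.sig
    rw [q']

/-- bounded sequences: `vx` -/
theorem bd_vx (kk jj : ℕ → ℕ → ℕ) {c : ℕ} (hc : c ≤ K) :
    F.S.Bd fun a => vx F.h (F.n a) c (kk c a) (jj c a) := by
  refine ⟨4, Eventually.of_forall fun a => ?_⟩
  have h1 : vx F.h (F.n a) c (kk c a) (jj c a) ≤ 4 * (c * F.n a) := by
    unfold vx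
    have e1 : 2 * c * F.n a = 2 * (c * F.n a) := by ring
    rw [e1]
    omega
  have h2 : c * F.n a ≤ F.S.L a := by
    rw [F.L_eq]
    exact Nat.mul_le_mul_right _ hc
  have h3 : vx F.h (F.n a) c (kk c a) (jj c a) ≤ 4 * F.S.L a := h1.trans (Nat.mul_le_mul_left _ h2)
  exact_mod_cast h3

end flg

theorem logb_half (m : ℕ) : Real.logb 2 ((1 / 2 : ℝ) ^ m) = -(m : ℝ) := by
  rw [one_div, inv_pow, Real.logb_inv, Real.logb_pow, Real.logb_self_eq_one (by norm_num), mul_one]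

/-- the volume of the fattened box -/
theorem logb_fat {n h c k j m : ℕ} {s : Sl} (hs : s.h = h) {B : Cbx} (hu2 : B.u2 ≤ (1 / 2 : ℝ) ^ k) (hu1 : B.u1 ≤ (1 / 2 : ℝ) ^ j)
    (h1 : 0 < B.u1) (h12 : B.u1 ≤ B.u2) (hkj : k ≤ j) (hjc : j ≤ c * n) :
    Real.logb 2 (bvol s n c (fat ((1 / 2 : ℝ) ^ m) B)) ≤
      (vx h n c k j : ℝ) + j - min j m := by
  subst hs
  have hu2p : 0 < B.u2 := h1.trans_le h12
  have hH : (0:ℝ) < W.hh n s.h c := by unfold W.hh; positivity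
  have hm1 : max B.u1 ((1 / 2 : ℝ) ^ m) ≤ (1 / 2 : ℝ) ^ min j m := by
    refine max_le (hu1.trans ?_) ?_
    · exact pow_le_pow_of_le_one (by norm_num) (by norm_num) (min_le_left _ _)
    · exact pow_le_pow_of_le_one (by norm_num) (by norm_num) (min_le_right _ _)
  have hp1 : 0 < max B.u1 ((1 / 2 : ℝ) ^ m) := h1.trans_le (le_max_left _ _)
  have e2 : bvol s n c (fat ((1 / 2 : ℝ) ^ m) B) =
      max B.u1 ((1 / 2 : ℝ) ^ m) * B.u2 / ((1 / 2 : ℝ) ^ (c * n)) ^ 2 * max 1 (B.u2 ^ 2 / W.hh n s.h c) := rfl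
  have hx1 : max B.u1 ((1 / 2 : ℝ) ^ m) * B.u2 / ((1 / 2 : ℝ) ^ (c * n)) ^ 2 ≤
      (2:ℝ) ^ ((2 * c * n : ℕ) : ℝ) * ((2:ℝ) ^ (-(min j m : ℝ)) * (2:ℝ) ^ (-(k:ℝ))) := by
    rw [div_le_iff₀ (by positivity)]
    have g1 : (2:ℝ) ^ ((2 * c * n : ℕ) : ℝ) * ((1 / 2 : ℝ) ^ (c * n)) ^ 2 = 1 := by
      rw [Real.rpow_natCast, ← pow_mul, show 2 * c * n = c * n * 2 by ring, ← mul_pow]
      norm_num
    have g2 : (2:ℝ) ^ (-(min j m : ℝ)) = (1 / 2 : ℝ) ^ min j m := by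
      have : (min (j:ℝ) (m:ℝ)) = ((min j m : ℕ) : ℝ) := by push_cast; rfl
      rw [this, Real.rpow_neg (by norm_num), Real.rpow_natCast, one_div, inv_pow]
    have g3 : (2:ℝ) ^ (-(k : ℝ)) = (1 / 2 : ℝ) ^ k := by
      rw [Real.rpow_neg (by norm_num), Real.rpow_natCast, one_div, inv_pow]
    have g4 : (2:ℝ) ^ ((2 * c * n : ℕ) : ℝ) * ((2:ℝ) ^ (-(min j m : ℝ)) * (2:ℝ) ^ (-(k:ℝ))) *
        ((1 / 2 : ℝ) ^ (c * n)) ^ 2 = (2:ℝ) ^ (-(min j m : ℝ)) * (2:ℝ) ^ (-(k:ℝ)) := by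
      linear_combination ((2:ℝ) ^ (-(min j m : ℝ)) * (2:ℝ) ^ (-(k:ℝ))) * g1
    rw [g4, g2, g3]
    exact mul_le_mul hm1 hu2 hu2p.le (by positivity)
  have hx2 : max 1 (B.u2 ^ 2 / W.hh n s.h c) ≤ (2:ℝ) ^ ((2 * c * n - (s.h * n + 2 * k) : ℕ) : ℝ) := by
    refine max_le (Real.one_le_rpow (by norm_num) (by positivity)) ?_
    rw [div_le_iff₀ hH]
    have g1 : B.u2 ^ 2 ≤ ((1 / 2 : ℝ) ^ k) ^ 2 := pow_le_pow_left₀ hu2p.le hu2 2
    refine g1.trans ?_
    have g2 : ((1 / 2 : ℝ) ^ k) ^ 2 = (2:ℝ) ^ (-(2 * k : ℝ)) := by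
      rw [Real.rpow_neg (by norm_num), ← pow_mul, one_div, inv_pow]
      congr 1
      rw [← Real.rpow_natCast]
      congr 1
      push_cast
      ring
    have g3 : W.hh n s.h c = (2:ℝ) ^ ((s.h * n : ℝ) - 2 * c * n) := by
      unfold W.hh
      rw [Real.rpow_sub (by norm_num), ← Real.rpow_natCast, ← Real.rpow_natCast]
      push_cast
      rfl
    rw [g2, g3, ← Real.rpow_add (by norm_num)]
    refine Real.rpow_le_rpow_of_exponent_le (by norm_num) ?_
    have g4 : ((2 * c * n : ℕ) : ℝ) ≤ ((2 * c * n - (s.h * n + 2 * k) : ℕ) : ℝ) + ((s.h * n + 2 * k : ℕ) : ℝ) := by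
      exact_mod_cast le_tsub_add
    push_cast at g4 ⊢
    linarith
  rw [e2]
  have hpos1 : 0 < max B.u1 ((1 / 2 : ℝ) ^ m) * B.u2 / ((1 / 2 : ℝ) ^ (c * n)) ^ 2 := by positivity
  have hpos2 : 0 < max 1 (B.u2 ^ 2 / W.hh n s.h c) := lt_max_of_lt_left one_pos
  rw [Real.logb_mul hpos1.ne' hpos2.ne']
  have k1 := (Real.logb_le_logb_of_le (by norm_num : (1:ℝ) < 2) hpos1 hx1)
  have k2 := (Real.logb_le_logb_of_le (by norm_num : (1:ℝ) < 2) hpos2 hx2)
  rw [Real.logb_mul (by positivity) (by positivity), Real.logb_mul (by positivity) (by positivity),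
    Real.logb_rpow (by norm_num) (by norm_num), Real.logb_rpow (by norm_num) (by norm_num),
    Real.logb_rpow (by norm_num) (by norm_num)] at k1
  rw [Real.logb_rpow (by norm_num) (by norm_num)] at k2
  have k3 : ((vx s.h n c k j : ℕ) : ℝ) = (2 * c * n : ℝ) - (k + j) + ((2 * c * n - (s.h * n + 2 * k) : ℕ) : ℝ) := by
    unfold vx
    have : k + j ≤ 2 * c * n := by
      have e3 : 2 * c * n = 2 * (c * n) := by ring
      rw [e3]
      omega
    push_cast [Nat.cast_sub this]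
    ring
  rw [k3]
  have k4 : ((min j m : ℕ) : ℝ) = min (j:ℝ) (m:ℝ) := by push_cast; rfl
  rw [k4]
  push_cast at k1 k2 ⊢
  linarith

/-- **the Kakeya step with the box of level `i` fattened to the radius of level `j`** -/
theorem stBox {A : ℝ} (h1 : E1) (h3 : E3) (h4 : E4 A) : StBox A := by
  intro K F J θ H e W kk jj hK R i j hi hij hj2 hjK hwin hkk
  have hiK : i ≤ K := hij.trans hjK
  have hK0 : (0:ℝ) < K := by exact_mod_cast hK
  set m : ℕ → ℕ := fun a => (2 * i - j) * F.n a with hm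
  have hnm : F.S.nu m = ((2 * i - j : ℕ) : ℝ) / K := nu_mul F hK _
  have bkk := bd_kk R hiK
  have bjj := bd_jj R hiK
  have bm : F.S.Bd m := bd_m F (2 * i - j) (by omega)
  have bvx := bd_vx (F := F) kk jj hiK
  -- eventually `kk < m`
  have hlt : ∀ᶠ a in (uf : Filter ℕ), kk i a + 1 ≤ m a := by
    have a1 : ulim (fun a => (kk i a : ℝ) / F.S.L a - (m a : ℝ) / F.S.L a) < 0 := by
      rw [ulim_sub (Bd.ub bkk) (Bd.ub bm)]
      have : ulim (fun a => (m a : ℝ) / F.S.L a) = ((2 * i - j : ℕ) : ℝ) / K := hnm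
      rw [this]
      have : ulim (fun a => (kk i a : ℝ) / F.S.L a) = F.S.nu (kk i) := rfl
      rw [this]
      linarith
    filter_upwards [ulim_lt_eventually ((Bd.ub bkk).sub (Bd.ub bm)) a1, F.S.L_pos] with a h0 hL
    have hL' : (0:ℝ) < F.S.L a := by exact_mod_cast hL
    rw [← sub_div, div_lt_iff₀ hL', zero_mul] at h0
    have : (kk i a : ℝ) < m a := by linarith
    exact_mod_cast this
  set B : F.S.RV Cbx := fun a ω => fat ((1 / 2 : ℝ) ^ m a) (W i a ω) with hB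
  have hrad : ∀ a, (2:ℝ) ^ (j * F.n a) / 2 ^ (2 * i * F.n a) = (1 / 2 : ℝ) ^ m a := by
    intro a
    rw [div_eq_iff (by positivity), one_div, inv_pow, ← div_eq_inv_mul, eq_div_iff (by positivity), ← pow_add]
    congr 1
    rw [hm, ← add_mul]
    congr 1
    omega
  have hIn : F.InW (Ext.refl F.S) i j B := by
    filter_upwards [R.Wok i hiK, hlt] with a hW ha ω hω
    obtain ⟨g1, g2, g3, g4, g5, g6⟩ := hW ω hω
    refine ⟨?_, fat_In g1⟩
    show Okb _ _ _ _ _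
    unfold Okb
    rw [hrad]
    refine fat_ok ?_ g2
    refine le_trans ?_ g3.1
    exact pow_le_pow_of_le_one (by norm_num) (by norm_num) ha
  -- (K)
  have k1 := h4 F i j hK hi hij hj2 hjK hwin F.S (Ext.refl F.S) B hIn
  have k1' : F.S.hc (F.N j) (one (S := F.S)) + 4 * j / K - F.exc j ≤
      F.S.hc (F.sig i j) (one (S := F.S)) - F.S.hc (F.sig i j) (Sys.pr B (F.ball i)) +
        4 * i / K + F.S.av (F.lv i B) + (A + 1) * F.D i j := k1
  have k2 : F.S.hc (F.N j) (one (S := F.S)) = H j := (h1 F J θ H e W kk jj hK R).1 j hjK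
  have k3 : F.exc j ≤ e j := h3 F j (e j) hK hjK (R.e0 j hjK) (R.exU j hjK)
  -- informations
  have tN : Tame (F.N i) := Vale.Agent.P122.H518.cnt_tame (R.N1 i hiK)
  have tsig : Tame (F.sig i j) := tN.mono (fn_sig i j)
  have tV : Tame (vL F W i) := Vale.Agent.P122.H518.cnt_tame (R.W1 i hiK)
  have k4 : F.S.hc (F.sig i j) (vL F W i) ≤ F.S.hc (F.sig i j) (Sys.pr B (F.ball i)) := by
    refine hc_mono_right tsig (Eventually.of_forall fun a ω ω' _ _ q => ?_)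
    have q1 := congrArg Prod.fst q
    have q2 := congrArg Prod.snd q
    have q1' : W i a ω = W i a ω' := q1
    refine Prod.ext ?_ q2
    show fat _ (W i a ω) = fat _ (W i a ω')
    rw [q1']
  have k5 : F.S.hc (F.sig i j) (one (S := F.S)) - F.S.hc (F.sig i j) (vL F W i) =
      F.S.hc (vL F W i) (one (S := F.S)) - F.S.hc (vL F W i) (F.sig i j) := by
    have a1 := mi_comm tsig tV (one (S := F.S))
    unfold Sys.mi at a1
    rw [hc_one_right, hc_one_right] at a1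
    exact a1
  have k6 := Vale.Agent.P122.H518.cnt_hc_le (R.W1 i hiK)
  have k6' : F.S.hc (vL F W i) (one (S := F.S)) ≤
      H i - e i - F.S.nu (fun a => vx F.h (F.n a) i (kk i a) (jj i a)) + 1 / K := k6
  -- sizes
  have bmin : F.S.Bd fun a => min (jj i a) (m a) := by
    obtain ⟨x, hx⟩ := bjj
    refine ⟨x, ?_⟩
    filter_upwards [hx] with a h0
    have : ((min (jj i a) (m a) : ℕ) : ℝ) ≤ jj i a := by exact_mod_cast min_le_left _ _
    linarith
  have k7 : F.S.av (F.lv i B) ≤ F.S.nu (fun a => vx F.h (F.n a) i (kk i a) (jj i a)) +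
      (F.S.nu (jj i) - F.S.nu fun a => min (jj i a) (m a)) := by
    have hbd : ∀ᶠ a in (uf : Filter ℕ), ∀ ω, 0 < (F.S.P a).w ω → 0 ≤ F.lv i B a ω ∧
        F.lv i B a ω ≤ (vx F.h (F.n a) i (kk i a) (jj i a) : ℝ) + jj i a - min (jj i a) (m a) := by
      filter_upwards [R.Wok i hiK] with a hW ω hω
      obtain ⟨g1, g2, g3, g4, g5, g6⟩ := hW ω hω
      have hr0 : (0:ℝ) < 2 ^ (i * F.n a) / 2 ^ (2 * i * F.n a) := by positivity
      have g7 : 0 < (W i a ω).u1 := hr0.trans_le g2.r1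
      constructor
      · refine Real.logb_nonneg (by norm_num) ?_
        have hr1 : (1 / 2 : ℝ) ^ (i * F.n a) = 2 ^ (i * F.n a) / 2 ^ (2 * i * F.n a) := by
          rw [eq_div_iff (by positivity), one_div, inv_pow, ← div_eq_inv_mul, div_eq_iff (by positivity), ← pow_add]
          congr 1
          ring
        have g8 : (1 / 2 : ℝ) ^ (i * F.n a) ≤ max (W i a ω).u1 ((1 / 2 : ℝ) ^ m a) := by
          rw [hr1]
          exact g2.r1.trans (le_max_left _ _)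
        have g9 : (1 / 2 : ℝ) ^ (i * F.n a) ≤ (W i a ω).u2 := by
          rw [hr1]
          exact g2.r1.trans g2.u12
        have g10 : (1:ℝ) ≤ max (W i a ω).u1 ((1 / 2 : ℝ) ^ m a) * (W i a ω).u2 / ((1 / 2 : ℝ) ^ (i * F.n a)) ^ 2 := by
          rw [le_div_iff₀ (by positivity), one_mul, sq]
          exact mul_le_mul g8 g9 (by positivity) (by positivity)
        have g11 : (1:ℝ) ≤ max 1 ((W i a ω).u2 ^ 2 / Vale.Agent.P106.W.hh (F.n a) (F.s a).h i) := le_max_left _ _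
        show (1:ℝ) ≤ max (W i a ω).u1 ((1 / 2 : ℝ) ^ m a) * (W i a ω).u2 / ((1 / 2 : ℝ) ^ (i * F.n a)) ^ 2 *
          max 1 ((W i a ω).u2 ^ 2 / Vale.Agent.P106.W.hh (F.n a) (F.s a).h i)
        exact one_le_mul_of_one_le_of_one_le g10 g11
      · have := logb_fat (m := m a) (F.hs a) g3.2 g4.2 g7 g2.u12 g5 g6
        exact this
    have hmn : ∀ a, ((min (jj i a) (m a) : ℕ) : ℝ) ≤ jj i a := fun a => by exact_mod_cast min_le_left _ _
    have hOL : OL (F.lv i B) := by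
      obtain ⟨x, hx⟩ := bjj
      obtain ⟨y, hy⟩ := bvx
      refine ⟨y + x, ?_⟩
      filter_upwards [hbd, hx, hy] with a h0 h1 h2 ω hω
      obtain ⟨g1, g2⟩ := h0 ω hω
      rw [abs_of_nonneg g1]
      have : (0:ℝ) ≤ ((min (jj i a) (m a) : ℕ) : ℝ) := Nat.cast_nonneg _
      push_cast at this
      nlinarith
    have e1 : F.S.nu (fun a => vx F.h (F.n a) i (kk i a) (jj i a)) +
        (F.S.nu (jj i) - F.S.nu fun a => min (jj i a) (m a)) =
        ulim fun a => (vx F.h (F.n a) i (kk i a) (jj i a) : ℝ) / F.S.L a +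
          ((jj i a : ℝ) / F.S.L a - ((min (jj i a) (m a) : ℕ) : ℝ) / F.S.L a) := by
      rw [ulim_add (Bd.ub bvx) ((Bd.ub bjj).sub (Bd.ub bmin)), ulim_sub (Bd.ub bjj) (Bd.ub bmin)]
      rfl
    rw [e1]
    refine ulim_le (UB.av hOL) ((Bd.ub bvx).add ((Bd.ub bjj).sub (Bd.ub bmin))) ?_
    filter_upwards [hbd, F.S.L_pos] with a h0 hL
    have hL' : (0:ℝ) < F.S.L a := by exact_mod_cast hL
    rw [← sub_div, ← add_div]
    refine div_le_div_of_nonneg_right ?_ hL'.le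
    have h1 : (F.S.P a).ex (F.lv i B a) ≤ (F.S.P a).ex fun _ =>
        (vx F.h (F.n a) i (kk i a) (jj i a) : ℝ) + ((jj i a : ℝ) - ((min (jj i a) (m a) : ℕ) : ℝ)) := by
      refine (F.S.P a).ex_mono fun ω hω => ?_
      have h2 := (h0 ω hω).2
      linarith
    rw [Law.ex_const] at h1
    exact h1
  have k8 : (F.S.nu fun a => min (jj i a) ((2 * i - j) * F.n a)) = F.S.nu fun a => min (jj i a) (m a) := rfl
  rw [k8]
  rw [k2] at k1'
  unfold nV
  linarith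

end Vale.Agent.P106.R.H624
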