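import Vale.Agent.P106.R.E.Defs
import Vale.Agent.P122.H540.PNu

/-!
# P106 / R / H624 : two rays in one conformal box (helper624)

* `near_cells` : if the wide coordinates of the rays and `ζ` are close then the normal ones are `O(u1)` close.
* `near_piece` : if the rays are in one piece then the normal coordinates in the local direction `bang` are `O(u1)` close.
-/

set_option autoImplicit false

namespace Vale.Agent.P106.R.H624

open Vale.Agent.P106.R.C2 Vale.Agent.P106.R.E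
open Vale.Agent.P106.W (Cbx)

/-- value of the slab function at the time `0` -/
noncomputable def g1 (B : Cbx) (y s : Fin 2 → ℝ) (z : ℝ) : ℝ :=
  fn B.θ (y - B.p) + B.κ * (z + ∑ k, y k * (s k - B.v k) - B.ω) - B.α * ∑ k, (y k - B.p k) ^ 2

/-- increment of the slab function -/
noncomputable def g2 (B : Cbx) (y s : Fin 2 → ℝ) (z : ℝ) : ℝ :=
  fn B.θ (s - B.v) + B.κ * (∑ k, (s k - B.v k) ^ 2) / 2 + 2 * B.α * (z + ∑ k, B.p k * (s k - B.v k) - B.ω)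

theorem g1_sub (B : Cbx) (y s y' s' : Fin 2 → ℝ) (z z' : ℝ) :
    g1 B y' s' z' - g1 B y s z = (bnv B y s 0 * (y' 0 - y 0) + bnv B y s 1 * (y' 1 - y 1)) +
      B.κ * (z' + ∑ k, y' k * (s' k - s k) - z) - B.α * ∑ k, (y' k - y k) ^ 2 := by
  unfold g1 bnv fn
  simp only [Fin.sum_univ_two, Pi.sub_apply, Matrix.cons_val_zero, Matrix.cons_val_one]
  ring

theorem g2_sub (B : Cbx) (y s y' s' : Fin 2 → ℝ) (z z' : ℝ) :
    g2 B y' s' z' - g2 B y s z = (bnv B y s 0 * (s' 0 - s 0) + bnv B y s 1 * (s' 1 - s 1)) +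
      B.κ * (∑ k, (s' k - s k) ^ 2) / 2 + 2 * B.α * (z' + ∑ k, y' k * (s' k - s k) - z) -
        2 * B.α * ∑ k, (y' k - y k) * (s' k - s k) := by
  unfold g2 bnv fn
  simp only [Fin.sum_univ_two, Pi.sub_apply, Matrix.cons_val_zero, Matrix.cons_val_one]
  ring

theorem abs_le_of_abs_le_abs_sq (x : ℝ) (h : |x| ≤ 3 / 8) : x ^ 2 ≤ 9 / 64 := by
  have := sq_le_sq' (abs_le.1 h).1 (abs_le.1 h).2
  linarith

/-- length of the local normal vector -/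
theorem bnv_len {B : Cbx} {y s : Fin 2 → ℝ} (hy : ∀ k, |y k - B.p k| ≤ B.u2) (hs : ∀ k, |s k - B.v k| ≤ B.u2)
    (hα : |B.α| * B.u2 ≤ 1 / 8) (hκ : |B.κ| * B.u2 ≤ 1 / 8) :
    4 / 25 ≤ bnv B y s 0 ^ 2 + bnv B y s 1 ^ 2 := by
  have h1 : ∀ k, |B.κ * (s k - B.v k) - 2 * B.α * (y k - B.p k)| ≤ 3 / 8 := by
    intro k
    refine (abs_sub _ _).trans ?_
    rw [abs_mul, abs_mul, abs_mul, abs_two]
    have a1 := mul_le_mul_of_nonneg_left (hs k) (abs_nonneg B.κ)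
    have a2 := mul_le_mul_of_nonneg_left (hy k) (abs_nonneg B.α)
    nlinarith
  set a := B.κ * (s 0 - B.v 0) - 2 * B.α * (y 0 - B.p 0) with ha
  set b := B.κ * (s 1 - B.v 1) - 2 * B.α * (y 1 - B.p 1) with hb
  have e0 : bnv B y s 0 = -Real.sin B.θ + a := by
    unfold bnv
    simp only [Matrix.cons_val_zero]
    rw [ha]
    ring
  have e1 : bnv B y s 1 = Real.cos B.θ + b := by
    unfold bnv
    simp only [Matrix.cons_val_one, Matrix.cons_val_zero]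
    rw [hb]
    ring
  have h0' := h1 0
  have h1' := h1 1
  rw [← ha] at h0'
  rw [← hb] at h1'
  rw [e0, e1]
  have hsc := Real.sin_sq_add_cos_sq B.θ
  have q0 := abs_le.1 h0'
  have q1 := abs_le.1 h1'
  have h2 : a ^ 2 + b ^ 2 ≤ 9 / 32 := by
    have := abs_le_of_abs_le_abs_sq a h0'
    have := abs_le_of_abs_le_abs_sq b h1'
    linarith
  set c := -Real.sin B.θ * a + Real.cos B.θ * b with hc
  have h5 : (-Real.sin B.θ + a) ^ 2 + (Real.cos B.θ + b) ^ 2 = 1 + 2 * c + (a ^ 2 + b ^ 2) := by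
    rw [hc]
    linear_combination hsc
  have h6 : c ^ 2 + (Real.cos B.θ * a + Real.sin B.θ * b) ^ 2 = a ^ 2 + b ^ 2 := by
    rw [hc]
    linear_combination (a ^ 2 + b ^ 2) * hsc
  have h7 := sq_nonneg (Real.cos B.θ * a + Real.sin B.θ * b)
  have h8 : -(11 / 20) ≤ c := by
    refine (abs_le.1 (abs_le_of_sq_le_sq (b := 11 / 20) ?_ (by norm_num))).1
    linarith
  have h9 : (9 / 20) * (9 / 20) ≤ (1 + c) * (1 + c) := mul_self_le_mul_self (by norm_num) (by linarith)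
  rw [h5]
  linarith

/-- normal coordinate in the local direction -/
theorem fn_bang {B : Cbx} {y s : Fin 2 → ℝ} (h : 4 / 25 ≤ bnv B y s 0 ^ 2 + bnv B y s 1 ^ 2) (v : Fin 2 → ℝ) :
    |fn (bang B y s) v| ≤ 5 / 2 * |bnv B y s 0 * v 0 + bnv B y s 1 * v 1| := by
  set z : ℂ := ⟨bnv B y s 1, -(bnv B y s 0)⟩ with hz
  have hn : ‖z‖ ^ 2 = bnv B y s 0 ^ 2 + bnv B y s 1 ^ 2 := by
    rw [← Complex.normSq_eq_norm_sq, Complex.normSq_apply, hz]
    ring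
  have hz0 : z ≠ 0 := by
    intro h0
    rw [h0, norm_zero] at hn
    linarith
  have hpos : 0 < ‖z‖ := norm_pos_iff.2 hz0
  have h25 : 2 / 5 ≤ ‖z‖ := by nlinarith
  have hc : Real.cos (bang B y s) = bnv B y s 1 / ‖z‖ := by
    unfold bang
    rw [← hz, Complex.cos_arg hz0]
  have hs : Real.sin (bang B y s) = -(bnv B y s 0) / ‖z‖ := by
    unfold bang
    rw [← hz, Complex.sin_arg]
  have e : fn (bang B y s) v = (bnv B y s 0 * v 0 + bnv B y s 1 * v 1) / ‖z‖ := by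
    unfold fn
    rw [hc, hs]
    ring
  rw [e, abs_div, abs_of_pos hpos, div_le_iff₀ hpos]
  have := abs_nonneg (bnv B y s 0 * v 0 + bnv B y s 1 * v 1)
  nlinarith

theorem mul_bd {κ X H u c : ℝ} (h1 : |X| ≤ c * H) (h2 : |κ| * H ≤ u) (hc : 0 ≤ c) : |κ * X| ≤ c * u := by
  rw [abs_mul]
  calc |κ| * |X| ≤ |κ| * (c * H) := mul_le_mul_of_nonneg_left h1 (abs_nonneg _)
    _ = c * (|κ| * H) := by ring
    _ ≤ c * u := mul_le_mul_of_nonneg_left h2 hc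

theorem quot_bd {x q d c : ℝ} (h : |x * q| ≤ c) (hq : d ≤ |q|) (hd : 0 < d) : |x| ≤ c / d := by
  rw [le_div_iff₀ hd]
  rw [abs_mul] at h
  exact (mul_le_mul_of_nonneg_left hq (abs_nonneg _)).trans h

theorem mul_bd' {x y a b : ℝ} (h1 : |x| ≤ a) (h2 : |y| ≤ b) : |x * y| ≤ a * b := by
  rw [abs_mul]
  exact mul_le_mul h1 h2 (abs_nonneg _) ((abs_nonneg _).trans h1)

theorem sum2_bd {ρ H : ℝ} (hρ : ρ ^ 2 ≤ H) {u w : Fin 2 → ℝ} (hu : ∀ k, |u k| ≤ ρ) (hw : ∀ k, |w k| ≤ ρ) :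
    |∑ k, u k * w k| ≤ 2 * H := by
  rw [Fin.sum_univ_two]
  have b0 := mul_bd' (hu 0) (hw 0)
  have b1 := mul_bd' (hu 1) (hw 1)
  have h := abs_add_le (u 0 * w 0) (u 1 * w 1)
  have e : ρ * ρ = ρ ^ 2 := by ring
  rw [e] at b0 b1
  linarith only [b0, b1, h, hρ]

/-- **two rays of one box in one piece** -/
theorem near_piece {B : Cbx} {H ρ : ℝ} {y s y' s' : Fin 2 → ℝ} {z z' : ℝ} (h : B.In H y s z) (h' : B.In H y' s' z')
    (hα : |B.α| * B.u2 ≤ 1 / 8) (hκ : |B.κ| * B.u2 ≤ 1 / 8) (hαH : |B.α| * H ≤ B.u1) (hκH : |B.κ| * H ≤ B.u1)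
    (hρ : ρ ^ 2 ≤ H) (hy : ∀ k, |y' k - y k| ≤ ρ) (hs : ∀ k, |s' k - s k| ≤ ρ)
    (hz : |z' + ∑ k, y' k * (s' k - s k) - z| ≤ 3 * H) :
    |fn (bang B y s) (fun k => y' k - y k)| ≤ 35 * B.u1 ∧ |fn (bang B y s) (fun k => s' k - s k)| ≤ 35 * B.u1 := by
  have hb := bnv_len h.1 h.2.1 hα hκ
  have a1 : |g1 B y s z| ≤ B.u1 := h.2.2.2.1
  have a1' : |g1 B y' s' z'| ≤ B.u1 := h'.2.2.2.1
  have a2 : |g2 B y s z| ≤ B.u1 := h.2.2.2.2
  have a2' : |g2 B y' s' z'| ≤ B.u1 := h'.2.2.2.2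
  have e1 := g1_sub B y s y' s' z z'
  have e2 := g2_sub B y s y' s' z z'
  have hρ0 : 0 ≤ ρ := (abs_nonneg _).trans (hy 0)
  have hu : 0 ≤ B.u1 := (abs_nonneg _).trans a1
  have s1 := sum2_bd hρ (u := fun k => y' k - y k) (w := fun k => y' k - y k) hy hy
  have s2 := sum2_bd hρ (u := fun k => s' k - s k) (w := fun k => s' k - s k) hs hs
  have s3 := sum2_bd hρ (u := fun k => y' k - y k) (w := fun k => s' k - s k) hy hs
  simp only [← sq] at s1 s2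
  have k1 : |B.κ * (z' + ∑ k, y' k * (s' k - s k) - z)| ≤ 3 * B.u1 := mul_bd hz hκH (by norm_num)
  have k2 : |B.α * ∑ k, (y' k - y k) ^ 2| ≤ 2 * B.u1 := mul_bd s1 hαH (by norm_num)
  have k3 : |B.κ * ∑ k, (s' k - s k) ^ 2| ≤ 2 * B.u1 := mul_bd s2 hκH (by norm_num)
  have k4 : |B.α * (z' + ∑ k, y' k * (s' k - s k) - z)| ≤ 3 * B.u1 := mul_bd hz hαH (by norm_num)
  have k5 : |B.α * ∑ k, (y' k - y k) * (s' k - s k)| ≤ 2 * B.u1 := mul_bd s3 hαH (by norm_num)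
  clear s1 s2 s3
  have m1 : |bnv B y s 0 * (y' 0 - y 0) + bnv B y s 1 * (y' 1 - y 1)| ≤ 14 * B.u1 := by
    have e : bnv B y s 0 * (y' 0 - y 0) + bnv B y s 1 * (y' 1 - y 1) =
      g1 B y' s' z' - g1 B y s z - B.κ * (z' + ∑ k, y' k * (s' k - s k) - z) + B.α * ∑ k, (y' k - y k) ^ 2 := by
      rw [e1]
      ring
    rw [e]
    have t1 := abs_le.1 a1
    have t2 := abs_le.1 a1'
    have t3 := abs_le.1 k1
    have t4 := abs_le.1 k2
    refine abs_le.2 ⟨?_, ?_⟩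
    · linarith only [t1.2, t2.1, t3.2, t4.1, hu]
    · linarith only [t1.1, t2.2, t3.1, t4.2, hu]
  have m2 : |bnv B y s 0 * (s' 0 - s 0) + bnv B y s 1 * (s' 1 - s 1)| ≤ 14 * B.u1 := by
    have e : bnv B y s 0 * (s' 0 - s 0) + bnv B y s 1 * (s' 1 - s 1) =
      g2 B y' s' z' - g2 B y s z - B.κ * (∑ k, (s' k - s k) ^ 2) / 2 -
        2 * (B.α * (z' + ∑ k, y' k * (s' k - s k) - z)) + 2 * (B.α * ∑ k, (y' k - y k) * (s' k - s k)) := by
      rw [e2]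
      ring
    rw [e]
    have t1 := abs_le.1 a2
    have t2 := abs_le.1 a2'
    have t3 := abs_le.1 k3
    have t4 := abs_le.1 k4
    have t5 := abs_le.1 k5
    refine abs_le.2 ⟨?_, ?_⟩
    · linarith only [t1.2, t2.1, t3.2, t4.2, t5.1, hu]
    · linarith only [t1.1, t2.2, t3.1, t4.1, t5.2, hu]
  have f1 := fn_bang hb (fun k => y' k - y k)
  have f2 := fn_bang hb (fun k => s' k - s k)
  constructor
  · refine f1.trans ?_
    linarith only [m1]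
  · refine f2.trans ?_
    linarith only [m2]

/-- **two rays of one box with close wide coordinates** -/
theorem near_cells {B : Cbx} {H r : ℝ} {y s y' s' : Fin 2 → ℝ} {z z' : ℝ} (h : B.In H y s z) (h' : B.In H y' s' z')
    (hα : |B.α| * B.u2 ≤ 1 / 8) (hκ : |B.κ| * B.u2 ≤ 1 / 8) (hαH : |B.α| * H ≤ B.u1) (hκH : |B.κ| * H ≤ B.u1)
    (hr : r ≤ B.u1) (hr0 : 0 ≤ r) (h12 : B.u1 ≤ B.u2)
    (hy : |fw B.θ y' - fw B.θ y| ≤ r) (hs : |fw B.θ s' - fw B.θ s| ≤ r)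
    (hz : |(z' + ∑ k, y' k * (s' k - B.v k)) - (z + ∑ k, y k * (s k - B.v k))| ≤ H) :
    |fn B.θ y' - fn B.θ y| ≤ 35 * B.u1 ∧ |fn B.θ s' - fn B.θ s| ≤ 35 * B.u1 := by
  have hsc := Real.sin_sq_add_cos_sq B.θ
  set a := fw B.θ (y - B.p) with ha
  set b := fn B.θ (y - B.p) with hb
  set a' := fw B.θ (y' - B.p) with ha'
  set b' := fn B.θ (y' - B.p) with hb'
  set σ := fw B.θ (s - B.v) with hσ
  set τ := fn B.θ (s - B.v) with hτ
  set σ' := fw B.θ (s' - B.v) with hσ'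
  set τ' := fn B.θ (s' - B.v) with hτ'
  have hu1 : 0 ≤ B.u1 := hr0.trans hr
  have hu2 : 0 ≤ B.u2 := hu1.trans h12
  have bw : ∀ (v : Fin 2 → ℝ), (∀ k, |v k| ≤ B.u2) → |fw B.θ v| ≤ 2 * B.u2 ∧ |fn B.θ v| ≤ 2 * B.u2 := by
    intro v hv
    have h0 := hv 0
    have h1 := hv 1
    exact ⟨(Vale.Agent.P122.H540.abs_fw_le _ _).trans (by linarith), (Vale.Agent.P122.H540.abs_fn_le _ _).trans (by linarith)⟩
  have b1 := bw (y - B.p) h.1
  have b2 := bw (y' - B.p) h'.1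
  have b3 := bw (s - B.v) h.2.1
  have b4 := bw (s' - B.v) h'.2.1
  rw [← ha, ← hb] at b1
  rw [← ha', ← hb'] at b2
  rw [← hσ, ← hτ] at b3
  rw [← hσ', ← hτ'] at b4
  have ea : fw B.θ y' - fw B.θ y = a' - a := by
    rw [ha, ha']; unfold fw; simp only [Pi.sub_apply]; ring
  have eb : fn B.θ y' - fn B.θ y = b' - b := by
    rw [hb, hb']; unfold fn; simp only [Pi.sub_apply]; ring
  have eσ : fw B.θ s' - fw B.θ s = σ' - σ := by
    rw [hσ, hσ']; unfold fw; simp only [Pi.sub_apply]; ring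
  have eτ : fn B.θ s' - fn B.θ s = τ' - τ := by
    rw [hτ, hτ']; unfold fn; simp only [Pi.sub_apply]; ring
  rw [ea] at hy
  rw [eσ] at hs
  rw [eb, eτ]
  set ζ := z + ∑ k, y k * (s k - B.v k) - B.ω with hζ
  set ζ' := z' + ∑ k, y' k * (s' k - B.v k) - B.ω with hζ'
  have hz' : |ζ' - ζ| ≤ H := by
    have : ζ' - ζ = (z' + ∑ k, y' k * (s' k - B.v k)) - (z + ∑ k, y k * (s k - B.v k)) := by rw [hζ, hζ']; ring
    rw [this]
    exact hz
  have c1 : |b + B.κ * ζ - B.α * (a ^ 2 + b ^ 2)| ≤ B.u1 := by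
    have e : ∑ k, (y k - B.p k) ^ 2 = a ^ 2 + b ^ 2 := by
      rw [ha, hb, Fin.sum_univ_two]
      unfold fw fn
      simp only [Pi.sub_apply]
      linear_combination (-((y 0 - B.p 0) ^ 2 + (y 1 - B.p 1) ^ 2)) * hsc
    have := h.2.2.2.1
    rw [e] at this
    exact this
  have c1' : |b' + B.κ * ζ' - B.α * (a' ^ 2 + b' ^ 2)| ≤ B.u1 := by
    have e : ∑ k, (y' k - B.p k) ^ 2 = a' ^ 2 + b' ^ 2 := by
      rw [ha', hb', Fin.sum_univ_two]
      unfold fw fn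
      simp only [Pi.sub_apply]
      linear_combination (-((y' 0 - B.p 0) ^ 2 + (y' 1 - B.p 1) ^ 2)) * hsc
    have := h'.2.2.2.1
    rw [e] at this
    exact this
  have c2 : |τ + B.κ * (σ ^ 2 + τ ^ 2) / 2 + 2 * B.α * (ζ - (a * σ + b * τ))| ≤ B.u1 := by
    have e : ∑ k, (s k - B.v k) ^ 2 = σ ^ 2 + τ ^ 2 := by
      rw [hσ, hτ, Fin.sum_univ_two]
      unfold fw fn
      simp only [Pi.sub_apply]
      linear_combination (-((s 0 - B.v 0) ^ 2 + (s 1 - B.v 1) ^ 2)) * hsc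
    have e' : z + ∑ k, B.p k * (s k - B.v k) - B.ω = ζ - (a * σ + b * τ) := by
      rw [hζ, ha, hb, hσ, hτ, Fin.sum_univ_two, Fin.sum_univ_two]
      unfold fw fn
      simp only [Pi.sub_apply]
      linear_combination ((y 0 - B.p 0) * (s 0 - B.v 0) + (y 1 - B.p 1) * (s 1 - B.v 1)) * hsc
    have := h.2.2.2.2
    rw [e, e'] at this
    exact this
  have c2' : |τ' + B.κ * (σ' ^ 2 + τ' ^ 2) / 2 + 2 * B.α * (ζ' - (a' * σ' + b' * τ'))| ≤ B.u1 := by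
    have e : ∑ k, (s' k - B.v k) ^ 2 = σ' ^ 2 + τ' ^ 2 := by
      rw [hσ', hτ', Fin.sum_univ_two]
      unfold fw fn
      simp only [Pi.sub_apply]
      linear_combination (-((s' 0 - B.v 0) ^ 2 + (s' 1 - B.v 1) ^ 2)) * hsc
    have e' : z' + ∑ k, B.p k * (s' k - B.v k) - B.ω = ζ' - (a' * σ' + b' * τ') := by
      rw [hζ', ha', hb', hσ', hτ', Fin.sum_univ_two, Fin.sum_univ_two]
      unfold fw fn
      simp only [Pi.sub_apply]
      linear_combination ((y' 0 - B.p 0) * (s' 0 - B.v 0) + (y' 1 - B.p 1) * (s' 1 - B.v 1)) * hsc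
    have := h'.2.2.2.2
    rw [e, e'] at this
    exact this
  -- position
  have kz : |B.κ * (ζ' - ζ)| ≤ B.u1 := by
    rw [abs_mul]
    exact (mul_le_mul_of_nonneg_left hz' (abs_nonneg _)).trans hκH
  have αz : |B.α * (ζ' - ζ)| ≤ B.u1 := by
    rw [abs_mul]
    exact (mul_le_mul_of_nonneg_left hz' (abs_nonneg _)).trans hαH
  have hαu : ∀ x : ℝ, |x| ≤ 4 * B.u2 → |B.α * x| ≤ 1 / 2 := fun x hx =>
    (mul_bd hx hα (by norm_num)).trans (by norm_num)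
  have hκu : ∀ x : ℝ, |x| ≤ 4 * B.u2 → |B.κ * x| ≤ 1 / 2 := fun x hx =>
    (mul_bd hx hκ (by norm_num)).trans (by norm_num)
  have sum4 : ∀ {u w : ℝ}, |u| ≤ 2 * B.u2 → |w| ≤ 2 * B.u2 → |u + w| ≤ 4 * B.u2 := by
    intro u w hu hw
    exact (abs_add_le _ _).trans (by linarith)
  have d1 : |B.α * (a' ^ 2 - a ^ 2)| ≤ B.u1 / 2 := by
    have e : B.α * (a' ^ 2 - a ^ 2) = (B.α * (a' + a)) * (a' - a) := by ring
    rw [e]
    refine (mul_bd' (hαu _ (sum4 b2.1 b1.1)) (hy.trans hr)).trans (le_of_eq ?_)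
    ring
  have pos : |b' - b| ≤ 7 * B.u1 := by
    have q := hαu _ (sum4 b2.2 b1.2)
    have e : (b' - b) * (1 - B.α * (b' + b)) =
        ((b' + B.κ * ζ' - B.α * (a' ^ 2 + b' ^ 2)) - (b + B.κ * ζ - B.α * (a ^ 2 + b ^ 2))) - B.κ * (ζ' - ζ) +
          B.α * (a' ^ 2 - a ^ 2) := by ring
    have h1 : |(b' - b) * (1 - B.α * (b' + b))| ≤ 7 / 2 * B.u1 := by
      rw [e]
      have t1 := abs_le.1 c1
      have t2 := abs_le.1 c1'
      have t3 := abs_le.1 kz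
      have t4 := abs_le.1 d1
      refine abs_le.2 ⟨?_, ?_⟩
      · linarith only [t1.2, t2.1, t3.2, t4.1, hu1]
      · linarith only [t1.1, t2.2, t3.1, t4.2, hu1]
    have h2 : 1 / 2 ≤ |1 - B.α * (b' + b)| := by
      refine le_trans ?_ (le_abs_self _)
      linarith only [(abs_le.1 q).2]
    refine (quot_bd h1 h2 (by norm_num)).trans (le_of_eq ?_)
    ring
  -- slope
  have d2 : |B.κ * (σ' ^ 2 - σ ^ 2) / 2| ≤ B.u1 / 4 := by
    have e : B.κ * (σ' ^ 2 - σ ^ 2) / 2 = (B.κ * (σ' + σ)) * (σ' - σ) / 2 := by ring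
    rw [e, abs_div, abs_two, abs_mul]
    have : |B.κ * (σ' + σ)| * |σ' - σ| ≤ 1 / 2 * B.u1 :=
      mul_le_mul (hκu _ (sum4 b4.1 b3.1)) (hs.trans hr) (abs_nonneg _) (by norm_num)
    linarith only [this]
  have hαu2 : ∀ x : ℝ, |x| ≤ 2 * B.u2 → |B.α * x| ≤ 1 / 4 := fun x hx =>
    (mul_bd hx hα (by norm_num)).trans (by norm_num)
  have d3 : |B.α * (a' * σ' - a * σ)| ≤ B.u1 / 2 := by
    have e : B.α * (a' * σ' - a * σ) = (B.α * a') * (σ' - σ) + (B.α * σ) * (a' - a) := by ring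
    rw [e]
    refine (abs_add_le _ _).trans ?_
    have t1 := mul_bd' (hαu2 _ b2.1) (hs.trans hr)
    have t2 := mul_bd' (hαu2 _ b3.1) (hy.trans hr)
    linarith only [t1, t2]
  have d4 : |B.α * ((b' - b) * τ)| ≤ 7 / 4 * B.u1 := by
    have e : B.α * ((b' - b) * τ) = (B.α * τ) * (b' - b) := by ring
    rw [e]
    refine (mul_bd' (hαu2 _ b3.2) pos).trans (le_of_eq ?_)
    ring
  have slo : |τ' - τ| ≤ 35 * B.u1 := by
    have q1 := hκu _ (sum4 b4.2 b3.2)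
    have q2 := hαu2 _ b2.2
    have e : (τ' - τ) * (1 + B.κ * (τ' + τ) / 2 - 2 * (B.α * b')) =
        ((τ' + B.κ * (σ' ^ 2 + τ' ^ 2) / 2 + 2 * B.α * (ζ' - (a' * σ' + b' * τ'))) -
          (τ + B.κ * (σ ^ 2 + τ ^ 2) / 2 + 2 * B.α * (ζ - (a * σ + b * τ)))) - B.κ * (σ' ^ 2 - σ ^ 2) / 2 -
          2 * (B.α * (ζ' - ζ)) + 2 * (B.α * (a' * σ' - a * σ)) + 2 * (B.α * ((b' - b) * τ)) := by ring
    have h1 : |(τ' - τ) * (1 + B.κ * (τ' + τ) / 2 - 2 * (B.α * b'))| ≤ 35 / 4 * B.u1 := by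
      rw [e]
      have t1 := abs_le.1 c2
      have t2 := abs_le.1 c2'
      have t3 := abs_le.1 αz
      have t4 := abs_le.1 d2
      have t5 := abs_le.1 d3
      have t6 := abs_le.1 d4
      refine abs_le.2 ⟨?_, ?_⟩
      · linarith only [t1.2, t2.1, t3.2, t4.2, t5.1, t6.1, hu1]
      · linarith only [t1.1, t2.2, t3.1, t4.1, t5.2, t6.2, hu1]
    have h2 : 1 / 4 ≤ |1 + B.κ * (τ' + τ) / 2 - 2 * (B.α * b')| := by
      refine le_trans ?_ (le_abs_self _)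
      linarith only [(abs_le.1 q1).1, (abs_le.1 q2).2]
    refine (quot_bd h1 h2 (by norm_num)).trans (le_of_eq ?_)
    ring
  exact ⟨pos.trans (by linarith only [hu1]), slo⟩

end Vale.Agent.P106.R.H624
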