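import Vale.Agent.P106.R.H624.BoxB
import Vale.Agent.P106.R.H624.Geo
import Vale.Agent.P106.R.H518.E12
import Vale.Agent.P106.R.SIG.Cn

/-!
# P106 / R / H624 : excess of a conformal box (helper624)

`stExc'` : `e c ≤ 2 c / K - ν (kk c) - ν (jj c) + 1 / K` (so `e ≤ log (u1 u2 / r²)`, the factor `u2² / H` of the volume
does not enter).   `stExc` : the form of `E9/Spec`.
-/

set_option autoImplicit false

namespace Vale.Agent.P106.R.H624

open Filter Topology Finset Vale.Agent.P127 Vale.Agent.P127.Stk Vale.Agent.P127.U Vale.Agent.P127.U.Sys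
  Vale.Agent.P106.R.C2 Vale.Agent.P106.R.E Vale.Agent.P106.R.E9
open Vale.Agent.P106.W (Cbx)

/-- entropies bounded by a sequence -/
theorem hc_le_nu {S : Sys} {α β : Type*} {X : S.RV α} {Z : S.RV β} (tX : Tame X) {f : ℕ → ℕ} (bf : S.Bd f) (C : ℝ)
    (h : ∀ᶠ a in (uf : Filter ℕ), Stk.hc (S.P a) (X a) (Z a) ≤ C + f a * Real.log 2) : S.hc X Z ≤ S.nu f := by
  have h1 : Tendsto (fun a => C / S.nm a) (uf : Filter ℕ) (𝓝 0) := S.const_div_nm C
  have h2 : UB fun a => C / S.nm a := by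
    refine ⟨1, ?_⟩
    have := (tendsto_order.1 h1.abs).2 1 (by simp)
    filter_upwards [this] with a ha
    exact ha.le
  have e : S.nu f = ulim fun a => C / S.nm a + (f a : ℝ) / S.L a := by
    rw [ulim_add h2 (Bd.ub bf), ulim_eq h1, zero_add]
    rfl
  rw [e]
  refine ulim_le (UB.hc tX _) (h2.add (Bd.ub bf)) ?_
  filter_upwards [h, S.nm_pos, S.L_pos] with a g1 g2 g3
  have hL : (0:ℝ) < S.L a := by exact_mod_cast g3
  have hl2 : 0 < Real.log 2 := Real.log_pos (by norm_num)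
  rw [div_le_iff₀ g2, add_mul, div_mul_cancel₀ _ g2.ne']
  have e1 : (f a : ℝ) / S.L a * S.nm a = f a * Real.log 2 := by
    unfold Sys.nm
    field_simp
  rw [e1]
  exact g1

theorem fl_win {x y : ℝ} {m : ℕ} (h : |x - y| ≤ m) :
    ⌊x⌋ ∈ Finset.Icc (⌊y⌋ - ((m : ℤ) + 1)) (⌊y⌋ + ((m : ℤ) + 1)) := Vale.Agent.P122.H540.floor_mem h

theorem fl_eq_close {x y : ℝ} (h : ⌊x⌋ = ⌊y⌋) : |x - y| ≤ 1 := (Int.abs_sub_lt_one_of_floor_eq_floor h).le

section flg

variable {K : ℕ} (F : Flg K) (W : ℕ → F.S.RV Cbx)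

/-- wide digits -/
noncomputable def xA (c : ℕ) : F.S.RV ((ℤ × ℤ) × ℤ) := fun a ω =>
  ((⌊2 ^ (c * F.n a) * fw (W c a ω).θ (py (F.n a) c (F.N c a ω))⌋,
    ⌊2 ^ (c * F.n a) * fw (W c a ω).θ (F.s a c (F.N c a ω).τ)⌋),
    ⌊(pz (F.s a) (F.n a) c (F.N c a ω) + ∑ k, py (F.n a) c (F.N c a ω) k * (F.s a c (F.N c a ω).τ k - (W c a ω).v k)) /
      Vale.Agent.P106.W.hh (F.n a) (F.s a).h c⌋)

/-- normal digits -/
noncomputable def xB (c : ℕ) : F.S.RV (ℤ × ℤ) := fun a ω =>
  (⌊2 ^ (c * F.n a) * fn (W c a ω).θ (py (F.n a) c (F.N c a ω))⌋,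
    ⌊2 ^ (c * F.n a) * fn (W c a ω).θ (F.s a c (F.N c a ω).τ)⌋)

variable {F W} {J θ H e : ℕ → ℝ} {kk jj : ℕ → ℕ → ℕ}

theorem fn_xA (R : RegA F J θ H e W kk jj) {c : ℕ} (hc : c ≤ K) : Sys.Fn (xA F W c) (F.N c) := by
  filter_upwards [R.Wfn c hc] with a h1 ω ω' hω hω' q
  have q' : F.N c a ω = F.N c a ω' := q
  have h2 : W c a ω = W c a ω' := h1 ω ω' hω hω' q
  unfold xA
  rw [q', h2]

theorem fn_xB (R : RegA F J θ H e W kk jj) {c : ℕ} (hc : c ≤ K) : Sys.Fn (xB F W c) (F.N c) := by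
  filter_upwards [R.Wfn c hc] with a h1 ω ω' hω hω' q
  have q' : F.N c a ω = F.N c a ω' := q
  have h2 : W c a ω = W c a ω' := h1 ω ω' hω hω' q
  unfold xB
  rw [q', h2]

theorem hr_eq (n c : ℕ) : (2:ℝ) ^ (c * n) / 2 ^ (2 * c * n) = (1 / 2 : ℝ) ^ (c * n) := by
  rw [div_eq_iff (by positivity), one_div, inv_pow, ← div_eq_inv_mul, eq_div_iff (by positivity), ← pow_add]
  congr 1
  ring

theorem hh_pos (n h c : ℕ) : 0 < Vale.Agent.P106.W.hh n h c := by
  unfold Vale.Agent.P106.W.hh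
  positivity

theorem two_half (m : ℕ) : (2:ℝ) ^ m * (1 / 2) ^ m = 1 := by
  rw [← mul_pow]
  norm_num

theorem pow_sub_half {N k : ℕ} (h : k ≤ N) : (2:ℝ) ^ N * (1 / 2) ^ k = 2 ^ (N - k) := by
  obtain ⟨d, rfl⟩ := Nat.exists_eq_add_of_le h
  rw [Nat.add_sub_cancel_left, pow_add]
  have := two_half k
  linear_combination (2:ℝ) ^ d * this

/-- wide coordinates of two rays of one box -/
theorem wide_close {B : Cbx} {H : ℝ} {y s y' s' : Fin 2 → ℝ} {z z' : ℝ} (h : B.In H y s z) (h' : B.In H y' s' z') :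
    |fw B.θ y' - fw B.θ y| ≤ 4 * B.u2 ∧ |fw B.θ s' - fw B.θ s| ≤ 4 * B.u2 ∧
      |(z' + ∑ k, y' k * (s' k - B.v k)) - (z + ∑ k, y k * (s k - B.v k))| ≤ 2 * max (B.u2 ^ 2) H := by
  have key : ∀ (u w : Fin 2 → ℝ) (p : Fin 2 → ℝ), (∀ k, |u k - p k| ≤ B.u2) → (∀ k, |w k - p k| ≤ B.u2) →
      |fw B.θ w - fw B.θ u| ≤ 4 * B.u2 := by
    intro u w p hu hw
    have e : fw B.θ w - fw B.θ u = fw B.θ (fun k => w k - u k) := by
      unfold fw
      ring
    rw [e]
    refine (Vale.Agent.P122.H540.abs_fw_le _ _).trans ?_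
    have h1 : ∀ k, |w k - u k| ≤ 2 * B.u2 := fun k => by
      have : w k - u k = (w k - p k) - (u k - p k) := by ring
      rw [this]
      refine (abs_sub _ _).trans ?_
      linarith [hu k, hw k]
    linarith [h1 0, h1 1]
  refine ⟨key _ _ _ h.1 h'.1, key _ _ _ h.2.1 h'.2.1, ?_⟩
  have e : (z' + ∑ k, y' k * (s' k - B.v k)) - (z + ∑ k, y k * (s k - B.v k)) =
      (z' + ∑ k, y' k * (s' k - B.v k) - B.ω) - (z + ∑ k, y k * (s k - B.v k) - B.ω) := by ring
  rw [e]
  refine (abs_sub _ _).trans ?_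
  linarith [h.2.2.1, h'.2.2.1]

theorem bd_A (kk : ℕ → ℕ → ℕ) {c : ℕ} (hc : c ≤ K) :
    F.S.Bd fun a => 2 * (c * F.n a - kk c a) + (2 * c * F.n a - (F.h * F.n a + 2 * kk c a)) := by
  refine ⟨4, Eventually.of_forall fun a => ?_⟩
  have h1 : 2 * (c * F.n a - kk c a) + (2 * c * F.n a - (F.h * F.n a + 2 * kk c a)) ≤ 4 * (c * F.n a) := by
    have e1 : 2 * c * F.n a = 2 * (c * F.n a) := by ring
    rw [e1]
    omega
  have h2 : c * F.n a ≤ F.S.L a := by
    rw [F.L_eq]
    exact Nat.mul_le_mul_right _ hc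
  have h3 := h1.trans (Nat.mul_le_mul_left 4 h2)
  exact_mod_cast h3

theorem bd_B (jj : ℕ → ℕ → ℕ) {c : ℕ} (hc : c ≤ K) : F.S.Bd fun a => 2 * (c * F.n a - jj c a) := by
  refine ⟨2, Eventually.of_forall fun a => ?_⟩
  have h1 : 2 * (c * F.n a - jj c a) ≤ 2 * (c * F.n a) := by omega
  have h2 : c * F.n a ≤ F.S.L a := by
    rw [F.L_eq]
    exact Nat.mul_le_mul_right _ hc
  have h3 := h1.trans (Nat.mul_le_mul_left 2 h2)
  exact_mod_cast h3

/-- number of the wide digits -/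
theorem hc_xA (R : RegA F J θ H e W kk jj) {c : ℕ} (hc : c ≤ K) :
    F.S.hc (xA F W c) (vL F W c) ≤
      F.S.nu fun a => 2 * (c * F.n a - kk c a) + (2 * c * F.n a - (F.h * F.n a + 2 * kk c a)) := by
  classical
  have tN : Tame (F.N c) := Vale.Agent.P122.H518.cnt_tame (R.N1 c hc)
  have bf := bd_A (F := F) kk hc
  refine hc_le_nu (tN.mono (fn_xA R hc)) bf (Real.log (11 * 11 * 7)) ?_
  filter_upwards [R.Wok c hc] with a hW
  set N := c * F.n a with hN
  set mx := 2 * c * F.n a - (F.h * F.n a + 2 * kk c a) with hmx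
  set m1 := 4 * 2 ^ (N - kk c a) with hm1
  set m3 := 2 * 2 ^ mx with hm3
  have h1 : Stk.hc (F.S.P a) (xA F W c a) (vL F W c a) ≤
      Real.log ((((2 * m1 + 3) * (2 * m1 + 3)) * (2 * m3 + 3) : ℕ) : ℝ) := by
    refine Stk.hc_le_log (F.S.P a) _ _ _ fun ω hω => ?_
    refine ⟨(Finset.Icc ((xA F W c a ω).1.1 - ((m1 : ℤ) + 1)) ((xA F W c a ω).1.1 + ((m1 : ℤ) + 1)) ×ˢ
      Finset.Icc ((xA F W c a ω).1.2 - ((m1 : ℤ) + 1)) ((xA F W c a ω).1.2 + ((m1 : ℤ) + 1))) ×ˢ
      Finset.Icc ((xA F W c a ω).2 - ((m3 : ℤ) + 1)) ((xA F W c a ω).2 + ((m3 : ℤ) + 1)), ?_, fun ω' hω' q => ?_⟩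
    · rw [Finset.card_product, Finset.card_product, Vale.Agent.P122.H540.card_win, Vale.Agent.P122.H540.card_win,
        Vale.Agent.P122.H540.card_win]
    · have qW : W c a ω' = W c a ω := congrArg Prod.fst q
      obtain ⟨g1, g2, g3, g4, g5, g6⟩ := hW ω hω
      have g1' := (hW ω' hω').1
      rw [qW] at g1'
      have hkN : kk c a ≤ N := g5.trans g6
      obtain ⟨w1, w2, w3⟩ := wide_close g1 g1'
      have hp : (0:ℝ) < 2 ^ N := by positivity
      have hu2 : (2:ℝ) ^ N * (4 * (W c a ω).u2) ≤ (m1 : ℝ) := by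
        have h2 := mul_le_mul_of_nonneg_left g3.2 hp.le
        rw [pow_sub_half hkN] at h2
        rw [hm1]
        push_cast
        linarith
      have sc : ∀ {x y : ℝ}, |x - y| ≤ 4 * (W c a ω).u2 → |2 ^ N * x - 2 ^ N * y| ≤ (m1 : ℝ) := by
        intro x y hxy
        rw [← mul_sub, abs_mul, abs_of_pos hp]
        exact (mul_le_mul_of_nonneg_left hxy hp.le).trans hu2
      have hH := hh_pos (F.n a) (F.s a).h c
      have hm3' : 2 * max ((W c a ω).u2 ^ 2) (Vale.Agent.P106.W.hh (F.n a) (F.s a).h c) ≤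
          (m3 : ℝ) * Vale.Agent.P106.W.hh (F.n a) (F.s a).h c := by
        have h2 : max ((W c a ω).u2 ^ 2) (Vale.Agent.P106.W.hh (F.n a) (F.s a).h c) ≤
            2 ^ mx * Vale.Agent.P106.W.hh (F.n a) (F.s a).h c := by
          refine max_le ?_ (le_mul_of_one_le_left hH.le (one_le_pow₀ (by norm_num)))
          have hu0 : 0 ≤ (W c a ω).u2 := (abs_nonneg _).trans (g1.1 0)
          have h3 : (W c a ω).u2 ^ 2 ≤ ((1 / 2 : ℝ) ^ kk c a) ^ 2 := pow_le_pow_left₀ hu0 g3.2 2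
          refine h3.trans ?_
          unfold Vale.Agent.P106.W.hh
          rw [mul_div_assoc', le_div_iff₀ (by positivity), ← pow_add, ← pow_mul]
          rw [F.hs a]
          have h4 : 2 * c * F.n a ≤ mx + F.h * F.n a + kk c a * 2 := by omega
          calc (1 / 2 : ℝ) ^ (kk c a * 2) * 2 ^ (2 * c * F.n a) ≤
              (1 / 2 : ℝ) ^ (kk c a * 2) * 2 ^ (mx + F.h * F.n a + kk c a * 2) :=
                mul_le_mul_of_nonneg_left (pow_le_pow_right₀ (by norm_num) h4) (by positivity)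
            _ = 2 ^ (mx + F.h * F.n a) := by
                rw [pow_add _ (mx + F.h * F.n a)]
                have := two_half (kk c a * 2)
                linear_combination (2:ℝ) ^ (mx + F.h * F.n a) * this
        rw [hm3]
        push_cast
        linarith
      rw [Finset.mem_product, Finset.mem_product]
      refine ⟨⟨?_, ?_⟩, ?_⟩
      · have : |2 ^ N * fw (W c a ω').θ (py (F.n a) c (F.N c a ω')) - 2 ^ N * fw (W c a ω).θ (py (F.n a) c (F.N c a ω))| ≤
            (m1 : ℝ) := by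
          rw [qW]
          exact sc w1
        exact fl_win this
      · have : |2 ^ N * fw (W c a ω').θ (F.s a c (F.N c a ω').τ) - 2 ^ N * fw (W c a ω).θ (F.s a c (F.N c a ω).τ)| ≤
            (m1 : ℝ) := by
          rw [qW]
          exact sc w2
        exact fl_win this
      · refine fl_win ?_
        rw [qW, ← sub_div, abs_div, abs_of_pos hH, div_le_iff₀ hH]
        exact w3.trans hm3'
  refine h1.trans ?_
  have h2 : ((((2 * m1 + 3) * (2 * m1 + 3)) * (2 * m3 + 3) : ℕ) : ℝ) ≤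
      (11 * 11 * 7) * 2 ^ (2 * (N - kk c a) + mx) := by
    have a1 : 2 * m1 + 3 ≤ 11 * 2 ^ (N - kk c a) := by
      have : 1 ≤ 2 ^ (N - kk c a) := Nat.one_le_two_pow
      omega
    have a2 : 2 * m3 + 3 ≤ 7 * 2 ^ mx := by
      have : 1 ≤ 2 ^ mx := Nat.one_le_two_pow
      omega
    have a3 := Nat.mul_le_mul (Nat.mul_le_mul a1 a1) a2
    have a4 : 11 * 2 ^ (N - kk c a) * (11 * 2 ^ (N - kk c a)) * (7 * 2 ^ mx) =
        (11 * 11 * 7) * 2 ^ (2 * (N - kk c a) + mx) := by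
      rw [pow_add, two_mul, pow_add]
      ring
    rw [a4] at a3
    exact_mod_cast a3
  refine (Real.log_le_log (by positivity) h2).trans (le_of_eq ?_)
  rw [Real.log_mul (by norm_num) (by positivity), Real.log_pow]

/-- number of the normal digits -/
theorem hc_xB (R : RegA F J θ H e W kk jj) {c : ℕ} (hc : c ≤ K) :
    F.S.hc (xB F W c) (Sys.pr (xA F W c) (vL F W c)) ≤ F.S.nu fun a => 2 * (c * F.n a - jj c a) := by
  classical
  have tN : Tame (F.N c) := Vale.Agent.P122.H518.cnt_tame (R.N1 c hc)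
  have bf := bd_B (F := F) jj hc
  refine hc_le_nu (tN.mono (fn_xB R hc)) bf (Real.log (73 * 73)) ?_
  filter_upwards [R.Wok c hc] with a hW
  set N := c * F.n a with hN
  set m1 := 35 * 2 ^ (N - jj c a) with hm1
  have h1 : Stk.hc (F.S.P a) (xB F W c a) (Sys.pr (xA F W c) (vL F W c) a) ≤
      Real.log (((2 * m1 + 3) * (2 * m1 + 3) : ℕ) : ℝ) := by
    refine Stk.hc_le_log (F.S.P a) _ _ _ fun ω hω => ?_
    refine ⟨Finset.Icc ((xB F W c a ω).1 - ((m1 : ℤ) + 1)) ((xB F W c a ω).1 + ((m1 : ℤ) + 1)) ×ˢ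
      Finset.Icc ((xB F W c a ω).2 - ((m1 : ℤ) + 1)) ((xB F W c a ω).2 + ((m1 : ℤ) + 1)), ?_, fun ω' hω' q => ?_⟩
    · rw [Finset.card_product, Vale.Agent.P122.H540.card_win, Vale.Agent.P122.H540.card_win]
    · have qX : xA F W c a ω' = xA F W c a ω := congrArg Prod.fst q
      have qV : vL F W c a ω' = vL F W c a ω := congrArg Prod.snd q
      have qW : W c a ω' = W c a ω := congrArg Prod.fst qV
      obtain ⟨g1, g2, g3, g4, g5, g6⟩ := hW ω hω
      have g1' := (hW ω' hω').1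
      rw [qW] at g1'
      have hp : (0:ℝ) < 2 ^ N := by positivity
      have hH := hh_pos (F.n a) (F.s a).h c
      have x1 := congrArg (fun x => x.1.1) qX
      have x2 := congrArg (fun x => x.1.2) qX
      have x3 := congrArg (fun x => x.2) qX
      simp only [xA] at x1 x2 x3
      rw [qW] at x1 x2 x3
      have y1 := fl_eq_close x1
      have y2 := fl_eq_close x2
      have y3 := fl_eq_close x3
      have sc : ∀ {x y : ℝ}, |2 ^ N * x - 2 ^ N * y| ≤ 1 → |x - y| ≤ (1 / 2 : ℝ) ^ N := by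
        intro x y hxy
        rw [← mul_sub, abs_mul, abs_of_pos hp] at hxy
        have h2 := mul_le_mul_of_nonneg_right hxy (by positivity : (0:ℝ) ≤ (1 / 2) ^ N)
        have e2 : 2 ^ N * |x - y| * (1 / 2 : ℝ) ^ N = |x - y| := by
          have := two_half N
          linear_combination |x - y| * this
        rw [e2, one_mul] at h2
        exact h2
      rw [← sub_div, abs_div, abs_of_pos hH, div_le_iff₀ hH, one_mul] at y3
      have hok := g2
      unfold Okb at hok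
      have hr1 : (1 / 2 : ℝ) ^ N ≤ (W c a ω).u1 := by
        rw [hN, ← hr_eq]
        exact hok.r1
      obtain ⟨w1, w2⟩ := near_cells g1 g1' hok.α2 hok.κ2 hok.αH hok.κH hr1 (by positivity) hok.u12 (sc y1) (sc y2) y3
      have hu1 : (2:ℝ) ^ N * (35 * (W c a ω).u1) ≤ (m1 : ℝ) := by
        have h2 := mul_le_mul_of_nonneg_left g4.2 hp.le
        rw [pow_sub_half g6] at h2
        rw [hm1]
        push_cast
        linarith
      have sc' : ∀ {x y : ℝ}, |x - y| ≤ 35 * (W c a ω).u1 → |2 ^ N * x - 2 ^ N * y| ≤ (m1 : ℝ) := by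
        intro x y hxy
        rw [← mul_sub, abs_mul, abs_of_pos hp]
        exact (mul_le_mul_of_nonneg_left hxy hp.le).trans hu1
      rw [Finset.mem_product]
      constructor
      · have : |2 ^ N * fn (W c a ω').θ (py (F.n a) c (F.N c a ω')) - 2 ^ N * fn (W c a ω).θ (py (F.n a) c (F.N c a ω))| ≤
            (m1 : ℝ) := by
          rw [qW]
          exact sc' w1
        exact fl_win this
      · have : |2 ^ N * fn (W c a ω').θ (F.s a c (F.N c a ω').τ) - 2 ^ N * fn (W c a ω).θ (F.s a c (F.N c a ω).τ)| ≤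
            (m1 : ℝ) := by
          rw [qW]
          exact sc' w2
        exact fl_win this
  refine h1.trans ?_
  have h2 : (((2 * m1 + 3) * (2 * m1 + 3) : ℕ) : ℝ) ≤ (73 * 73) * 2 ^ (2 * (N - jj c a)) := by
    have a1 : 2 * m1 + 3 ≤ 73 * 2 ^ (N - jj c a) := by
      have : 1 ≤ 2 ^ (N - jj c a) := Nat.one_le_two_pow
      omega
    have a3 := Nat.mul_le_mul a1 a1
    have a4 : 73 * 2 ^ (N - jj c a) * (73 * 2 ^ (N - jj c a)) = (73 * 73) * 2 ^ (2 * (N - jj c a)) := by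
      rw [two_mul, pow_add]
      ring
    rw [a4] at a3
    exact_mod_cast a3
  refine (Real.log_le_log (by positivity) h2).trans (le_of_eq ?_)
  rw [Real.log_mul (by norm_num) (by positivity), Real.log_pow]

/-- vector from its coordinates -/
theorem co_inv (θ : ℝ) (v : Fin 2 → ℝ) {r : ℝ} (h1 : |fw θ v| ≤ r) (h2 : |fn θ v| ≤ r) (k : Fin 2) : |v k| ≤ 2 * r := by
  have hsc := Real.sin_sq_add_cos_sq θ
  have hc := Real.abs_cos_le_one θ
  have hs := Real.abs_sin_le_one θ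
  have m : ∀ {c x : ℝ}, |c| ≤ 1 → |x| ≤ r → |c * x| ≤ r := by
    intro c x h3 h4
    rw [abs_mul]
    calc |c| * |x| ≤ 1 * |x| := mul_le_mul_of_nonneg_right h3 (abs_nonneg _)
      _ ≤ r := by rw [one_mul]; exact h4
  fin_cases k
  · have e : v 0 = Real.cos θ * fw θ v - Real.sin θ * fn θ v := by
      unfold fw fn
      linear_combination (-(v 0)) * hsc
    show |v 0| ≤ 2 * r
    rw [e]
    refine (abs_sub _ _).trans ?_
    linarith [m hc h1, m hs h2]
  · have e : v 1 = Real.sin θ * fw θ v + Real.cos θ * fn θ v := by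
      unfold fw fn
      linear_combination (-(v 1)) * hsc
    show |v 1| ≤ 2 * r
    rw [e]
    refine (abs_add_le _ _).trans ?_
    linarith [m hs h1, m hc h2]

/-- the node is determined by the box, the time block and the digits, up to `O(1)` -/
theorem zero_N (c : ℕ) : F.S.hc (F.N c) (Sys.pr (xB F W c) (Sys.pr (xA F W c) (vL F W c))) = 0 := by
  classical
  refine hc_zero_of_le (Real.log (((5 * 5) * (5 * 5) : ℕ) : ℝ)) (Eventually.of_forall fun a => ?_)
  refine Stk.hc_le_log (F.S.P a) (F.N c a) _ _ fun ω hω => ?_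
  set n := F.n a with hn
  set H := Vale.Agent.P106.W.hh n (F.s a).h c with hH
  have hHp : 0 < H := hh_pos n (F.s a).h c
  set g : Z2 → Z2 → ℝ := fun τ o => -(((F.N c a ω).T : ℝ) * (∑ k, F.s a c τ k ^ 2) / 2) +
    ∑ k, (o k : ℝ) / 2 ^ (c * n) * (F.s a c τ k - (W c a ω).v k) with hg
  refine ⟨((Fintype.piFinset fun k => Finset.Icc ((F.N c a ω).τ k - 2) ((F.N c a ω).τ k + 2)) ×ˢ
    (Fintype.piFinset fun k => Finset.Icc ((F.N c a ω).o k - 2) ((F.N c a ω).o k + 2))).image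
    fun p => (⟨p.1, p.2, (F.N c a ω).T, (xA F W c a ω).2 - ⌊g p.1 p.2 / H⌋⟩ : Nd), ?_, fun ω' hω' q => ?_⟩
  · refine Finset.card_image_le.trans ?_
    rw [Finset.card_product, Fintype.card_piFinset, Fintype.card_piFinset]
    have h1 : ∀ x : ℤ, (Finset.Icc (x - 2) (x + 2)).card = 5 := by
      intro x
      rw [Int.card_Icc]
      omega
    simp only [h1, Finset.prod_const, Finset.card_univ, Fintype.card_fin]
    exact le_of_eq (by norm_num)
  · have qB : xB F W c a ω' = xB F W c a ω := congrArg Prod.fst q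
    have q2 := congrArg Prod.snd q
    have qX : xA F W c a ω' = xA F W c a ω := congrArg Prod.fst q2
    have qV : vL F W c a ω' = vL F W c a ω := congrArg Prod.snd q2
    have qW : W c a ω' = W c a ω := congrArg Prod.fst qV
    have qT : (F.N c a ω').T = (F.N c a ω).T := congrArg Prod.snd qV
    have hp : (0:ℝ) < 2 ^ (c * n) := by positivity
    have x1 := fl_eq_close (congrArg (fun x => x.1.1) qX)
    have x2 := fl_eq_close (congrArg (fun x => x.1.2) qX)
    have x4 := fl_eq_close (congrArg (fun x => x.1) qB)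
    have x5 := fl_eq_close (congrArg (fun x => x.2) qB)
    rw [qW] at x1 x2 x4 x5
    have dw : ∀ (θ : ℝ) (u w : Fin 2 → ℝ), 2 ^ (c * n) * fw θ u - 2 ^ (c * n) * fw θ w =
        fw θ (fun k => 2 ^ (c * n) * (u k - w k)) := fun θ u w => by unfold fw; ring
    have dn : ∀ (θ : ℝ) (u w : Fin 2 → ℝ), 2 ^ (c * n) * fn θ u - 2 ^ (c * n) * fn θ w =
        fn θ (fun k => 2 ^ (c * n) * (u k - w k)) := fun θ u w => by unfold fn; ring
    have y1 : ∀ k, |2 ^ (c * n) * (py n c (F.N c a ω') k - py n c (F.N c a ω) k)| ≤ 2 * 1 :=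
      co_inv (W c a ω).θ _ (by rw [← dw]; exact x1) (by rw [← dn]; exact x4)
    have y2 : ∀ k, |2 ^ (c * n) * (F.s a c (F.N c a ω').τ k - F.s a c (F.N c a ω).τ k)| ≤ 2 * 1 :=
      co_inv (W c a ω).θ _ (by rw [← dw]; exact x2) (by rw [← dn]; exact x5)
    have so : ∀ k, |(F.N c a ω').o k - (F.N c a ω).o k| ≤ 2 := by
      intro k
      have h1 := y1 k
      have e1 : 2 ^ (c * n) * (py n c (F.N c a ω') k - py n c (F.N c a ω) k) =
          (((F.N c a ω').o k - (F.N c a ω).o k : ℤ) : ℝ) := by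
        unfold py
        push_cast
        field_simp
      rw [e1] at h1
      have : ((|(F.N c a ω').o k - (F.N c a ω).o k| : ℤ) : ℝ) ≤ 2 := by
        push_cast
        push_cast at h1
        linarith
      exact_mod_cast this
    have st : ∀ k, |(F.N c a ω').τ k - (F.N c a ω).τ k| ≤ 2 := by
      intro k
      have h1 := y2 k
      have e1 : 2 ^ (c * n) * (F.s a c (F.N c a ω').τ k - F.s a c (F.N c a ω).τ k) =
          (((F.N c a ω').τ k - (F.N c a ω).τ k : ℤ) : ℝ) := by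
        rw [SIG.cone_s (F.slp a), SIG.cone_s (F.slp a)]
        push_cast
        rw [← hn]
        field_simp
      rw [e1] at h1
      have : ((|(F.N c a ω').τ k - (F.N c a ω).τ k| : ℤ) : ℝ) ≤ 2 := by
        push_cast
        push_cast at h1
        linarith
      exact_mod_cast this
    have hicc : ∀ {x y : ℤ}, |x - y| ≤ 2 → x ∈ Finset.Icc (y - 2) (y + 2) := by
      intro x y h
      rw [abs_le] at h
      rw [Finset.mem_Icc]
      omega
    rw [Finset.mem_image]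
    refine ⟨((F.N c a ω').τ, (F.N c a ω').o), ?_, ?_⟩
    · rw [Finset.mem_product, Fintype.mem_piFinset, Fintype.mem_piFinset]
      exact ⟨fun k => hicc (st k), fun k => hicc (so k)⟩
    · have x3 : (xA F W c a ω').2 = (xA F W c a ω).2 := congrArg Prod.snd qX
      have e3 : (xA F W c a ω').2 = (F.N c a ω').w + ⌊g (F.N c a ω').τ (F.N c a ω').o / H⌋ := by
        rw [← Int.floor_intCast_add]
        show ⌊_⌋ = ⌊_⌋
        congr 1
        rw [div_eq_iff hHp.ne', add_mul, div_mul_cancel₀ _ hHp.ne', qW]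
        simp only [hg]
        unfold pz py
        rw [qT, hH]
        unfold Vale.Agent.P106.W.hh
        ring
      refine Nd.ext rfl rfl qT.symm ?_
      show (xA F W c a ω).2 - ⌊g (F.N c a ω').τ (F.N c a ω').o / H⌋ = (F.N c a ω').w
      rw [← x3, e3]
      ring

end flg

/-- **excess of a box**, strong form -/
theorem stExc' : AllA fun {K} F _ _ _ e _ kk jj =>
    ∀ c, c ≤ K → e c ≤ 2 * c / K - F.S.nu (kk c) - F.S.nu (jj c) + 1 / K := by
  intro K F J θ H e W kk jj hK R c hc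
  have tN : Tame (F.N c) := Vale.Agent.P122.H518.cnt_tame (R.N1 c hc)
  have tV : Tame (vL F W c) := Vale.Agent.P122.H518.cnt_tame (R.W1 c hc)
  have tA : Tame (xA F W c) := tN.mono (fn_xA R hc)
  have tB : Tame (xB F W c) := tN.mono (fn_xB R hc)
  have h1 : F.S.hc (F.N c) (one (S := F.S)) = H c := (H518.e1 F J θ H e W kk jj hK R).1 c hc
  have h2 := hc_le_add tN tV (one (S := F.S))
  have h3 : F.S.hc (F.N c) (Sys.pr (vL F W c) (one (S := F.S))) ≤ F.S.hc (F.N c) (vL F W c) :=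
    hc_mono_right tN (Eventually.of_forall fun _ _ _ _ _ q => congrArg Prod.fst q)
  have h4 := Vale.Agent.P122.H518.cnt_hc_le (R.W1 c hc)
  have h4' : F.S.hc (vL F W c) (one (S := F.S)) ≤
    H c - e c - F.S.nu (fun a => vx F.h (F.n a) c (kk c a) (jj c a)) + 1 / K := h4
  have h5 := hc_le_add tN tA (vL F W c)
  have h6 := hc_le_add tN tB (Sys.pr (xA F W c) (vL F W c))
  rw [zero_N c, zero_add] at h6
  have h7 := hc_xA R hc
  have h8 := hc_xB R hc
  -- the numbers
  have bN : F.S.Bd fun a => c * F.n a := bd_m F c hc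
  have bk := bd_kk R hc
  have bj := bd_jj R hc
  have hnN : F.S.nu (fun a => c * F.n a) = (c:ℝ) / K := nu_mul F hK c
  have hle : ∀ᶠ a in (uf : Filter ℕ), kk c a ≤ jj c a ∧ jj c a ≤ c * F.n a := by
    filter_upwards [R.Wok c hc] with a hW
    obtain ⟨ω, hω⟩ := law_pos (F.S.P a)
    exact ⟨(hW ω hω).2.2.2.2.1, (hW ω hω).2.2.2.2.2⟩
  have key : (F.S.nu fun a => 2 * (c * F.n a - kk c a) + (2 * c * F.n a - (F.h * F.n a + 2 * kk c a))) +
      (F.S.nu fun a => 2 * (c * F.n a - jj c a)) - F.S.nu (fun a => vx F.h (F.n a) c (kk c a) (jj c a)) =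
      2 * c / K - F.S.nu (kk c) - F.S.nu (jj c) := by
    have uA := Bd.ub (bd_A (F := F) kk hc)
    have uB := Bd.ub (bd_B (F := F) jj hc)
    have uV := Bd.ub (bd_vx (F := F) kk jj hc)
    have uN := Bd.ub bN
    have uk := Bd.ub bk
    have uj := Bd.ub bj
    have e1 : 2 * (c:ℝ) / K - F.S.nu (kk c) - F.S.nu (jj c) =
        ulim fun a => (((c * F.n a : ℕ) : ℝ) / F.S.L a + ((c * F.n a : ℕ) : ℝ) / F.S.L a - (kk c a : ℝ) / F.S.L a) -
          (jj c a : ℝ) / F.S.L a := by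
      rw [ulim_sub ((uN.add uN).sub uk) uj, ulim_sub (uN.add uN) uk, ulim_add uN uN]
      have e2 : ulim (fun a => ((c * F.n a : ℕ) : ℝ) / F.S.L a) = (c:ℝ) / K := hnN
      rw [e2]
      unfold Sys.nu
      ring
    rw [e1]
    unfold Sys.nu
    rw [← ulim_add uA uB, ← ulim_sub (uA.add uB) uV]
    refine ulim_congr ?_
    filter_upwards [hle] with a ha
    rw [← add_div, ← sub_div, ← add_div, ← sub_div, ← sub_div]
    congr 1
    have hk : kk c a ≤ c * F.n a := ha.1.trans ha.2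
    have h9 : kk c a + jj c a ≤ 2 * c * F.n a := by
      have e3 : 2 * c * F.n a = 2 * (c * F.n a) := by ring
      rw [e3]
      omega
    unfold vx
    rw [Nat.cast_add, Nat.cast_add, Nat.cast_mul, Nat.cast_mul, Nat.cast_sub hk, Nat.cast_sub ha.2, Nat.cast_sub h9]
    push_cast
    ring
  linarith

/-- **excess of a box** -/
theorem stExc : StExc := by
  intro K F J θ H e W kk jj hK R c hc
  refine (stExc' F J θ H e W kk jj hK R c hc).trans ?_
  have hle : ∀ᶠ a in (uf : Filter ℕ), kk c a ≤ jj c a ∧ jj c a ≤ c * F.n a := by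
    filter_upwards [R.Wok c hc] with a hW
    obtain ⟨ω, hω⟩ := law_pos (F.S.P a)
    exact ⟨(hW ω hω).2.2.2.2.1, (hW ω hω).2.2.2.2.2⟩
  have uV := Bd.ub (bd_vx (F := F) kk jj hc)
  have uN := Bd.ub (bd_m F c hc)
  have uk := Bd.ub (bd_kk R hc)
  have uj := Bd.ub (bd_jj R hc)
  have hnN : F.S.nu (fun a => c * F.n a) = (c:ℝ) / K := nu_mul F hK c
  have e1 : 2 * (c:ℝ) / K - F.S.nu (kk c) - F.S.nu (jj c) =
      ulim fun a => (((c * F.n a : ℕ) : ℝ) / F.S.L a + ((c * F.n a : ℕ) : ℝ) / F.S.L a - (kk c a : ℝ) / F.S.L a) -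
        (jj c a : ℝ) / F.S.L a := by
    rw [ulim_sub ((uN.add uN).sub uk) uj, ulim_sub (uN.add uN) uk, ulim_add uN uN]
    have e2 : ulim (fun a => ((c * F.n a : ℕ) : ℝ) / F.S.L a) = (c:ℝ) / K := hnN
    rw [e2]
    unfold Sys.nu
    ring
  rw [e1]
  refine add_le_add_left ?_ _
  refine ulim_le (((uN.add uN).sub uk).sub uj) uV ?_
  filter_upwards [hle, F.S.L_pos] with a ha hL
  have hL' : (0:ℝ) < F.S.L a := by exact_mod_cast hL
  rw [← add_div, ← sub_div, ← sub_div]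
  refine div_le_div_of_nonneg_right ?_ hL'.le
  have h9 : kk c a + jj c a ≤ 2 * c * F.n a := by
    have e3 : 2 * c * F.n a = 2 * (c * F.n a) := by ring
    rw [e3]
    omega
  unfold vx
  rw [Nat.cast_add, Nat.cast_sub h9]
  have h10 : (0:ℝ) ≤ ((2 * c * F.n a - (F.h * F.n a + 2 * kk c a) : ℕ) : ℝ) := Nat.cast_nonneg _
  push_cast
  linarith

end Vale.Agent.P106.R.H624
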